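import Vale.Agent.P235.K5.W.H531.Front
import Vale.Agent.P235.K5.W.H246.Touch
import Vale.Agent.P235.K5.H910.Cut3
import Vale.Agent.P235.K5.H521.FatFin
import Vale.Agent.P235.K5.W.H262.Tri5
import Vale.Agent.P235.K5.H863.V8

/-!
# P235, line K5, [WAG]: Theorem W (helper972; rows by helpers 531, 516, 246, 910, 521, 404, 262, 863)

A 3-connected graph with a `K_{3,3}` minor and without a `K_5` minor has three vertices leaving at
least three components, or is the Wagner graph `V_8`.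
-/

set_option autoImplicit false

namespace Vale.Agent.P235.K5.W.H972

open SimpleGraph Vale.Agent.P235.H134 Vale.Agent.P235.H56
open Vale.Agent.P235.K5.W.H531 (Con Tch Cut3 PureM)

variable {V : Type} {G : SimpleGraph V}

/-- a fat split -/
def FatP (G : SimpleGraph V) (X : Set V) (B : Fin 3 → Set V) : Prop :=
  ∃ P Q : Set V, P ∪ Q = X ∧ Disjoint P Q ∧ Con G P ∧ Con G Q ∧
    (∃ i j, i ≠ j ∧ Tch G P (B i) ∧ Tch G P (B j)) ∧
    (∃ i j, i ≠ j ∧ Tch G Q (B i) ∧ Tch G Q (B j))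

/-- a triangle -/
def TriP (G : SimpleGraph V) (X : Set V) (B : Fin 3 → Set V) : Prop :=
  ∃ Y : Fin 3 → Set V, (⋃ i, Y i) = X ∧ (∀ i j, i ≠ j → Disjoint (Y i) (Y j)) ∧
    (∀ i, Con G (Y i)) ∧ (∀ i j, i ≠ j → Tch G (Y i) (Y j)) ∧ ∀ i j, Tch G (Y j) (B i) ↔ i = j

/-- a hub -/
def HubP (G : SimpleGraph V) (X : Set V) (B : Fin 3 → Set V) : Prop :=
  ∃ h ∈ X, ∀ C ⊆ X, h ∉ C → Con G C → ∀ i j, Tch G C (B i) → Tch G C (B j) → i = j

theorem tricho [Finite V] {X : Set V} (hX : Con G X) (B : Fin 3 → Set V)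
    (hB : ∀ i, Tch G X (B i)) : FatP G X B ∨ TriP G X B ∨ HubP G X B :=
  H246.trichotomy hX B hB

theorem toMod {A B : Fin 3 → Set V} (h : PureM G A B) : H521.Mod G A B :=
  ⟨h.cA, h.cB, h.dA, h.dB, h.dAB, h.cov, h.tch⟩

theorem fat_fat {A B : Fin 3 → Set V} (h : PureM G A B) {i j : Fin 3}
    (h1 : FatP G (A i) B) (h2 : FatP G (B j) A) :
    IsMinor (⊤ : SimpleGraph (Fin 5)) G ∨ H521.V8Model G := by
  obtain ⟨C, D, e1, d1, c1, c2, t1, t2⟩ := h1
  obtain ⟨P, Q, e2, d2, c3, c4, t3, t4⟩ := h2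
  exact H521.fat (toMod h) (i := i) (j := j) ⟨e1.symm, d1, c1, c2⟩ ⟨e2.symm, d2, c3, c4⟩
    t1 t2 t3 t4

theorem of_five (h : ∃ μ : Fin 5 → Set V, (∀ a, (G.induce (μ a)).Connected) ∧
    (∀ a b, a ≠ b → Disjoint (μ a) (μ b)) ∧ ∀ a b, a ≠ b → ∃ x ∈ μ a, ∃ y ∈ μ b, G.Adj x y) :
    IsMinor (⊤ : SimpleGraph (Fin 5)) G := by
  obtain ⟨μ, h1, h2, h3⟩ := h
  exact ⟨μ, h1, h2, fun a b hab => h3 a b hab.ne⟩

theorem tri_tri {A B : Fin 3 → Set V} (h : PureM G A B) {i j : Fin 3}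
    (h1 : TriP G (A i) B) (h2 : TriP G (B j) A) : IsMinor (⊤ : SimpleGraph (Fin 5)) G := by
  obtain ⟨U, eU, dU, cU, tU, oU⟩ := h1
  obtain ⟨W, eW, dW, cW, tW, oW⟩ := h2
  exact of_five (H262.tri_tri A B h.cA h.cB h.dA h.dB h.dAB h.tch i j U W
    (fun k => eU ▸ Set.subset_iUnion U k) cU dU tU eU.symm.subset
    (fun k k' hk => ((oU k' k).1 hk).symm)
    (fun k => eW ▸ Set.subset_iUnion W k) cW dW tW eW.symm.subset
    (fun k k' hk => ((oW k' k).1 hk).symm))

theorem tri_fat {A B : Fin 3 → Set V} (h : PureM G A B) {i j : Fin 3}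
    (h1 : TriP G (A i) B) (h2 : FatP G (B j) A) : IsMinor (⊤ : SimpleGraph (Fin 5)) G := by
  obtain ⟨U, eU, dU, cU, tU, oU⟩ := h1
  obtain ⟨P, Q, e2, d2, c3, c4, t3, t4⟩ := h2
  exact of_five (H262.tri_fat A B h.cA h.cB h.dA h.dB h.dAB h.tch i j U
    (fun k => eU ▸ Set.subset_iUnion U k) cU dU tU eU.symm.subset
    (fun k k' hk => ((oU k' k).1 hk).symm)
    P Q (e2 ▸ Set.subset_union_left) (e2 ▸ Set.subset_union_right) e2.symm.subset d2 c3 c4 t3 t4)

/-- a pure model: a cut, `K_5` or `V_8` -/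
theorem pure_end [Finite V] {A B : Fin 3 → Set V} (h : PureM G A B)
    (h5 : ¬ IsMinor (⊤ : SimpleGraph (Fin 5)) G) : Cut3 G ∨ H521.V8Model G := by
  by_cases hA : ∀ i, HubP G (A i) B
  · exact Or.inl (H910.cut3 A B h.cov h.dA h.dB h.dAB h.pA h.pB h.cB hA)
  by_cases hB : ∀ j, HubP G (B j) A
  · exact Or.inl (H910.cut3' A B h.cov h.dA h.dB h.dAB h.pA h.pB h.cA hB)
  push Not at hA hB
  obtain ⟨i, hi⟩ := hA
  obtain ⟨j, hj⟩ := hB
  have ti := tricho (h.cA i) B (h.tch i)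
  have tj := tricho (h.cB j) A (fun k => (h.tch k j).symm)
  rcases ti with ti | ti | ti
  · rcases tj with tj | tj | tj
    · rcases fat_fat h ti tj with k | k
      · exact absurd k h5
      · exact Or.inr k
    · exact absurd (tri_fat h.flip tj ti) h5
    · exact absurd tj hj
  · rcases tj with tj | tj | tj
    · exact absurd (tri_fat h ti tj) h5
    · exact absurd (tri_tri h ti tj) h5
    · exact absurd tj hj
  · exact absurd ti hi

/-- the core, without 3-connectedness -/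
theorem core [Finite V] (hG : G.Preconnected) (h5 : ¬ IsMinor (⊤ : SimpleGraph (Fin 5)) G)
    (h33 : IsMinor K33 G) : Cut3 G ∨ H521.V8Model G := by
  rcases H531.front hG h5 h33 with h | ⟨A, B, h⟩
  · exact Or.inl h
  · exact pure_end h h5

/-- the trichotomy in the letters of `H863` -/
theorem typeStmt : H863.TypeStmt := by
  intro V _ G X N hX hN
  rcases H246.trichotomy hX N hN with ⟨P, Q, h⟩ | ⟨Y, e, d, c, t, o⟩ | ⟨h, hh, hC⟩
  · exact Or.inr (Or.inl ⟨P, Q, h⟩)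
  · exact Or.inr (Or.inr ⟨Y, fun k => e ▸ Set.subset_iUnion Y k, c, d, t, fun a => (o a a).2 rfl⟩)
  · exact Or.inl ⟨h, hh, fun C hCX hCc => hC C (fun x hx => (hCX hx).1)
      (fun hx => (hCX hx).2 rfl) hCc⟩

theorem v8_mod {p : Fin 8 → Set V} (hc : ∀ i, (G.induce (p i)).Connected)
    (hd : ∀ i j, i ≠ j → Disjoint (p i) (p j))
    (ht : ∀ i, H521.Touch G (p i) (p (i + 1)) ∧ H521.Touch G (p i) (p (i + 4))) :
    H863.Mod G p where
  con := hc
  dis := hd
  tch := by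
    intro i j hij
    have key : ∀ i j, H863.va i j = true → j = i + 1 ∨ i = j + 1 ∨ j = i + 4 := by
      unfold H863.va
      decide
    rcases key i j hij with rfl | rfl | rfl
    · exact (ht i).1
    · exact (ht j).1.symm
    · exact (ht i).2

/-- a graph with a `K_{3,3}` minor has at least six vertices -/
theorem six_le [Finite V] (h : IsMinor K33 G) : 6 ≤ Nat.card V := by
  obtain ⟨μ, h1, h2, -⟩ := h
  have hne : ∀ a, ∃ x, x ∈ μ a := fun a => by
    obtain ⟨x⟩ := (h1 a).nonempty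
    exact ⟨x.1, x.2⟩
  choose x hx using hne
  have hinj : Function.Injective x := by
    intro a b hab
    by_contra hne
    exact Set.disjoint_left.1 (h2 a b hne) (hx a) (hab ▸ hx b)
  have := Nat.card_le_card_of_injective x hinj
  simpa using this

/-- **THEOREM W.** -/
theorem theoremW [Finite V] (h3 : Conn3 G) (h5 : ¬ IsMinor (⊤ : SimpleGraph (Fin 5)) G)
    (h33 : IsMinor K33 G) :
    Cut3 G ∨ ∃ z : Fin 8 → V, Function.Bijective z ∧ ∀ i j, G.Adj (z i) (z j) ↔ H863.V8.Adj i j := by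
  have hcard : 4 ≤ Nat.card V := le_trans (by norm_num) (six_le h33)
  rcases core (H531.conn3_preconnected h3 hcard) h5 h33 with h | ⟨p, hc, hd, hu, ht⟩
  · exact Or.inl h
  · obtain ⟨z, -, hz, hz'⟩ := H863.v8 typeStmt h3 h5 (v8_mod hc hd ht) hu
    exact Or.inr ⟨z, hz, hz'⟩

/-- **THEOREM W**, with the two facts about `V_8` which are used. -/
theorem theoremW' [Finite V] (h3 : Conn3 G) (h5 : ¬ IsMinor (⊤ : SimpleGraph (Fin 5)) G)
    (h33 : IsMinor K33 G) :
    Cut3 G ∨ (Nat.card V = 8 ∧ ∀ x y z, G.Adj x y → G.Adj y z → ¬ G.Adj x z) := by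
  rcases theoremW h3 h5 h33 with h | ⟨z, hz, hz'⟩
  · exact Or.inl h
  · refine Or.inr ⟨?_, ?_⟩
    · rw [← Nat.card_congr (Equiv.ofBijective z hz)]
      simp
    · intro a b c hab hbc hac
      obtain ⟨i, rfl⟩ := hz.2 a
      obtain ⟨j, rfl⟩ := hz.2 b
      obtain ⟨k, rfl⟩ := hz.2 c
      have key : ∀ i j k, H863.va i j = true → H863.va j k = true → H863.va i k = false := by
        unfold H863.va
        decide
      have h1 : H863.va i j = true := (hz' i j).1 hab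
      have h2 : H863.va j k = true := (hz' j k).1 hbc
      have h3 : H863.va i k = true := (hz' i k).1 hac
      rw [key i j k h1 h2] at h3
      exact absurd h3 (by decide)

end Vale.Agent.P235.K5.W.H972
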