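import Vale.Agent.P235.K5.W.H972.W
import Vale.Agent.P235.K5.H509.Max
import Vale.Agent.P235.K5.H509.Side
import Vale.Agent.P235.K5.H803.Fin
import Vale.Agent.P235.H218.K5.Face

/-!
# P235, line K5, [WAG]: the class of graphs without a `K_5` minor (helper972)

Every finite graph without a `K_5` minor is a spanning subgraph of a graph obtained by gluing,
along cliques with at most 3 vertices, connected pieces `G` (glued on along `R`) such that `G` with
a new vertex joined to `R` has no `K_{3,3}` minor, or `G` has 8 vertices and `R` at most 2.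
Theorem W + helper509 (maximal graphs), helper803 (split, W4), helper218 (face).
-/

set_option autoImplicit false

namespace Vale.Agent.P235.K5.W.H972

open SimpleGraph Vale.Agent.P235.H134 Vale.Agent.P235.H56
open Vale.Agent.P235.H341W (capG)
open Vale.Agent.P235.K5 (Glued Adh Bef CliqueSum)
open Vale.Agent.P235.K5.H803 (NoSep)

variable {V : Type} {G : SimpleGraph V}

theorem cut3_w (h : H531.Cut3 G) : W.Cut3 G := by
  obtain ⟨S, D, hS, hc, hd, hdd, hcl⟩ := h
  let e := S.equivFinOfCardEq hS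
  refine ⟨fun i => (e.symm i : V), D, fun i j hij => e.symm.injective (Subtype.ext hij),
    fun i => ?_, fun i j hj => ?_, hdd, fun i u hu v huv => ?_⟩
  · obtain ⟨x⟩ := (hc i).nonempty
    exact ⟨x.1, x.2⟩
  · exact Set.disjoint_left.1 (hd i) hj (Finset.mem_coe.2 (e.symm j).2)
  · rcases hcl i u hu v huv with h | h
    · exact Or.inl h
    · exact Or.inr ⟨e ⟨v, h⟩, by simp⟩

/-- [W-CORE] -/
theorem core_max [Finite V] (hK : ¬ IsMinor (⊤ : SimpleGraph (Fin 5)) G)
    (hmax : ∀ u v, u ≠ v → ¬ G.Adj u v → IsMinor (⊤ : SimpleGraph (Fin 5)) (G ⊔ edge u v))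
    (hs : NoSep 3 G) : ¬ IsMinor K33 G ∨
      (Nat.card V = 8 ∧ ∀ x y z, G.Adj x y → G.Adj y z → ¬ G.Adj x z) := by
  by_cases h33 : IsMinor K33 G
  · right
    have h3 : Conn3 G := H509.conn3_of_max hK hmax (fun X hX hc => hs X (by omega) hX)
    rcases theoremW' h3 hK h33 with h | h
    · exact absurd (cut3_w h) (H509.no_cut3 h3 hK hmax (fun X hX hc => hs X hc hX))
    · exact h
  · exact Or.inl h33

/-- edge-maximal graphs without a `K_5` minor -/
theorem exists_max [Finite V] (h : ¬ IsMinor (⊤ : SimpleGraph (Fin 5)) G) :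
    ∃ H : SimpleGraph V, G ≤ H ∧ ¬ IsMinor (⊤ : SimpleGraph (Fin 5)) H ∧
      ∀ u v, u ≠ v → ¬ H.Adj u v → IsMinor (⊤ : SimpleGraph (Fin 5)) (H ⊔ edge u v) := by
  classical
  obtain ⟨H, hH, hm⟩ := Set.Finite.exists_le_maximal
    (Set.toFinite {H : SimpleGraph V | ¬ IsMinor (⊤ : SimpleGraph (Fin 5)) H}) h
  refine ⟨H, hH, hm.prop, fun u v huv hn => ?_⟩
  by_contra hc
  have hle : H ⊔ edge u v ≤ H := hm.le_of_ge hc le_sup_left
  refine hn (hle (Or.inr ?_))
  rw [edge_adj]
  exact ⟨Or.inl ⟨rfl, rfl⟩, huv⟩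

theorem glued_edge {k n : ℕ} {H : SimpleGraph V} {B : ℕ → Set V} (h : Glued k H n B) {t : ℕ}
    (ht : t < n) {u v : V} (hu : u ∈ B t) (hv : v ∈ B t) : Glued k (H ⊔ edge u v) n B where
  cover := h.cover
  card := h.card
  clique := fun s hs a ha b hb hab => Or.inl (h.clique s hs a ha b hb hab)
  sep := by
    intro s hs a b ha ha' hb hb' hab
    rcases hab with hab | hab
    · exact h.sep s hs a b ha ha' hb hb' hab
    · rw [edge_adj] at hab
      have hat : a ∈ B t := by
        rcases hab.1 with ⟨rfl, rfl⟩ | ⟨rfl, rfl⟩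
        · exact hu
        · exact hv
      have hbt : b ∈ B t := by
        rcases hab.1 with ⟨rfl, rfl⟩ | ⟨rfl, rfl⟩
        · exact hv
        · exact hu
      have hst : s < t := by
        rcases lt_trichotomy s t with h1 | h1 | h1
        · exact h1
        · exact absurd (h1 ▸ hbt) hb'
        · exact absurd ⟨t, h1, hat⟩ ha'
      obtain ⟨r, hr, hrb⟩ := hb
      exact h.sep s hs a b ha ha' ⟨r, hr, hrb⟩ hb' (h.clique t ht a ⟨hat, s, hst, ha⟩ b
        ⟨hbt, r, hr.trans hst, hrb⟩ hab.2)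

/-- the pieces of an edge-maximal graph without a `K_5` minor are edge-maximal -/
theorem piece_max [Finite V] {n : ℕ} {H : SimpleGraph V} {B : ℕ → Set V} (h : Glued 3 H n B)
    (hK : ¬ IsMinor (⊤ : SimpleGraph (Fin 5)) H)
    (hmax : ∀ u v, u ≠ v → ¬ H.Adj u v → IsMinor (⊤ : SimpleGraph (Fin 5)) (H ⊔ edge u v))
    {t : ℕ} (ht : t < n) (u v : B t) (huv : u ≠ v) (hn : ¬ (H.induce (B t)).Adj u v) :
    IsMinor (⊤ : SimpleGraph (Fin 5)) (H.induce (B t) ⊔ edge u v) := by
  obtain ⟨u, hu⟩ := u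
  obtain ⟨v, hv⟩ := v
  have huv' : u ≠ v := fun e => huv (Subtype.ext e)
  have hn' : ¬ H.Adj u v := hn
  obtain ⟨s, hs, hm⟩ := H803.glued_minor (glued_edge h ht hu hv) (hmax u v huv' hn')
  by_cases hst : s = t
  · subst hst
    have e : (H ⊔ edge u v).induce (B s) =
        H.induce (B s) ⊔ edge (⟨u, hu⟩ : B s) (⟨v, hv⟩ : B s) := by
      ext a b
      simp only [comap_adj, Function.Embedding.subtype_apply, sup_adj, edge_adj, Subtype.ext_iff,
        ne_eq]
    rwa [e] at hm
  · exfalso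
    apply hK
    have hno : ¬ (u ∈ B s ∧ v ∈ B s) := by
      rintro ⟨h1, h2⟩
      rcases lt_or_gt_of_ne hst with h' | h'
      · exact hn' (h.clique t ht u ⟨hu, s, h', h1⟩ v ⟨hv, s, h', h2⟩ huv')
      · exact hn' (h.clique s hs u ⟨h1, t, h', hu⟩ v ⟨h2, t, h', hv⟩ huv')
    have e : (H ⊔ edge u v).induce (B s) = H.induce (B s) := by
      ext a b
      constructor
      · rintro (h1 | h1)
        · exact h1
        · exfalso
          rw [edge_adj] at h1
          rcases h1.1 with ⟨h2, h3⟩ | ⟨h2, h3⟩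
          · exact hno ⟨h2 ▸ a.2, h3 ▸ b.2⟩
          · exact hno ⟨h3 ▸ b.2, h2 ▸ a.2⟩
      · exact fun h1 => Or.inl h1
    rw [e] at hm
    exact H803.minor_of_induce hm

/-- **[W-FIN]** every finite graph without a `K_5` minor is a spanning subgraph of a sum over
cliques with at most three vertices. -/
theorem k5free_class [Finite V] [Nonempty V] (G : SimpleGraph V)
    (h : ¬ IsMinor (⊤ : SimpleGraph (Fin 5)) G) : ∃ H : SimpleGraph V, G ≤ H ∧
      CliqueSum 3 (fun V G R => G.Connected ∧ (¬ IsMinor K33 (capG G R) ∨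
        (Nat.card V = 8 ∧ R.ncard ≤ 2))) H := by
  classical
  obtain ⟨H, hGH, hK, hmax⟩ := exists_max h
  obtain ⟨n, B, -, -, hB, hne, hs⟩ := H803.split 3 H ∅ (by simp) (by simp)
  refine ⟨H, hGH, n, B, hB, fun t ht => ?_⟩
  have hKt : ¬ IsMinor (⊤ : SimpleGraph (Fin 5)) (H.induce (B t)) :=
    fun hm => hK (H803.minor_of_induce hm)
  have hcl : ∀ x ∈ {x : B t | (x : V) ∈ Adh B t}, ∀ y ∈ {x : B t | (x : V) ∈ Adh B t}, x ≠ y →
      (H.induce (B t)).Adj x y := fun x hx y hy hxy =>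
    hB.clique t ht x hx y hy (fun e => hxy (Subtype.ext e))
  have hcard : ({x : B t | (x : V) ∈ Adh B t}).ncard ≤ 3 := by
    refine le_trans ?_ (hB.card t ht)
    rw [← Set.ncard_image_of_injective _ Subtype.val_injective]
    exact Set.ncard_le_ncard (by rintro _ ⟨x, hx, rfl⟩; exact hx) (Set.toFinite _)
  have hconn : (H.induce (B t)).Connected := by
    have := (hne t ht).to_subtype
    have h0 := hs t ht ∅ (by simp) (by simp)
    refine ⟨fun a b => ?_⟩
    have h1 := h0 ⟨a, by simp⟩ ⟨b, by simp⟩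
    exact h1.map (Embedding.induce _).toHom
  refine ⟨hconn, ?_⟩
  rcases core_max hKt (piece_max hB hK hmax ht) (hs t ht) with h33 | ⟨h8, htri⟩
  · exact Or.inl (Vale.Agent.P235.H218K5.face' hcl hcard (fun _ => hs t ht _ hcard hcl) (fun _ => hKt) h33)
  · refine Or.inr ⟨h8, ?_⟩
    by_contra hc
    have h3 : ({x : B t | (x : V) ∈ Adh B t}).ncard = 3 := by omega
    obtain ⟨x, y, z, hxy, hxz, hyz, e⟩ := Set.ncard_eq_three.1 h3
    have hx : x ∈ {x : B t | (x : V) ∈ Adh B t} := by rw [e]; simp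
    have hy : y ∈ {x : B t | (x : V) ∈ Adh B t} := by rw [e]; simp
    have hz : z ∈ {x : B t | (x : V) ∈ Adh B t} := by rw [e]; simp
    exact htri x y z (hcl x hx y hy hxy) (hcl y hy z hz hyz) (hcl x hx z hz hxz)

end Vale.Agent.P235.K5.W.H972
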